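import Vale.Agent.P200.Basic
import Vale.Agent.P200.Linalg

/-!
Restriction to a hyperplane and the colon by its equation.
-/

namespace Vale.Agent.P200.Split

open MvPolynomial Module

variable {K : Type*} [Field K] {σ : Type*}

/-- Dimension of the quotient by `I` in degree `t`. -/
noncomputable def qd (I : Ideal (MvPolynomial σ K)) (t : ℕ) : ℕ :=
  finrank K (homogeneousSubmodule σ K t) - finrank K (degPart t I)

/-- The colon of `I` by `l`. -/
noncomputable def colonBy (I : Ideal (MvPolynomial σ K)) (l : MvPolynomial σ K) :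
    Ideal (MvPolynomial σ K) :=
  Submodule.comap (LinearMap.mulLeft (MvPolynomial σ K) l) I

lemma mem_colonBy {I : Ideal (MvPolynomial σ K)} {l u : MvPolynomial σ K} :
    u ∈ colonBy I l ↔ l * u ∈ I := Iff.rfl

lemma le_colonBy (I : Ideal (MvPolynomial σ K)) (l : MvPolynomial σ K) : I ≤ colonBy I l :=
  fun _ hu => mem_colonBy.2 (Ideal.mul_mem_left I l hu)

lemma homogI_colonBy {I : Ideal (MvPolynomial σ K)} (hI : HomogI I) {l : MvPolynomial σ K} {m : ℕ}
    (hl : l.IsHomogeneous m) : HomogI (colonBy I l) := by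
  intro u hu t
  have := hI _ (mem_colonBy.1 hu) (m + t)
  rw [homogeneousComponent_mul_left hl, if_pos (by omega), Nat.add_sub_cancel_left] at this
  exact mem_colonBy.2 this

lemma colonBy_one (I : Ideal (MvPolynomial σ K)) : colonBy I 1 = I := by
  ext u; simp [mem_colonBy]

variable {n : ℕ}

/-- Restriction to the hyperplane of a nonzero linear form. -/
lemma exists_restrict {l : MvPolynomial (Fin (n + 1)) K} (hl : l.IsHomogeneous 1) (h0 : l ≠ 0) :
    ∃ π : MvPolynomial (Fin (n + 1)) K →ₐ[K] MvPolynomial (Fin n) K,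
      Function.Surjective π ∧ RingHom.ker π.toRingHom = Ideal.span {l} ∧
      (∀ {t : ℕ} {u}, u.IsHomogeneous t → (π u).IsHomogeneous t) ∧
      ∀ t u, homogeneousComponent t (π u) = π (homogeneousComponent t u) := by
  classical
  have hmem : l ∈ Submodule.span K
      (Set.range (X : Fin (n + 1) → MvPolynomial (Fin (n + 1)) K)) := by
    rw [← homogeneousSubmodule_one_eq_span_X]; exact hl
  obtain ⟨co, hco⟩ := (Submodule.mem_span_range_iff_exists_fun K).1 hmem
  obtain ⟨j, hj⟩ : ∃ j, co j ≠ 0 := by
    by_contra h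
    push Not at h
    exact h0 (by rw [← hco]; simp [h])
  let v : Fin (n + 1) → MvPolynomial (Fin n) K :=
    j.insertNth (-(co j)⁻¹ • ∑ k, co (j.succAbove k) • X k) fun k => X k
  have hv : ∀ s, (v s).IsHomogeneous 1 := by
    intro s
    rcases Fin.eq_self_or_eq_succAbove j s with rfl | ⟨k, rfl⟩
    · simp only [v, Fin.insertNth_apply_same]
      exact Submodule.smul_mem (homogeneousSubmodule (Fin n) K 1) _
        (Submodule.sum_mem _ fun k _ => Submodule.smul_mem _ _ (isHomogeneous_X K k))
    · simpa [v] using isHomogeneous_X K k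
  let π : MvPolynomial (Fin (n + 1)) K →ₐ[K] MvPolynomial (Fin n) K := aeval v
  have hπX : ∀ k, π (X (j.succAbove k)) = X k := fun k => by simp [π, v]
  have hhom : ∀ {t : ℕ} {u}, u.IsHomogeneous t → (π u).IsHomogeneous t := fun {t u} hu => by
    have := hu.aeval v hv
    rw [one_mul] at this
    exact this
  have hπl : π l = 0 := by
    rw [← hco, map_sum, Fin.sum_univ_succAbove _ j]
    simp only [map_smul, hπX]
    rw [show π (X j) = -(co j)⁻¹ • ∑ k, co (j.succAbove k) • (X k : MvPolynomial (Fin n) K) by
      simp [π, v], smul_smul]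
    simp [hj]
  let ι : MvPolynomial (Fin n) K →ₐ[K] MvPolynomial (Fin (n + 1)) K := rename j.succAbove
  have hπι : ∀ w, π (ι w) = w := by
    intro w
    induction w using MvPolynomial.induction_on with
    | C c => simp [π, ι]
    | add p q hp hq => rw [map_add, map_add, hp, hq]
    | mul_X p k hp =>
      rw [map_mul, map_mul, hp]
      simp [ι, hπX]
  have hdiff : ∀ u, u - ι (π u) ∈ Ideal.span {l} := by
    intro u
    induction u using MvPolynomial.induction_on with
    | C c => simp [π, ι]
    | add p q hp hq =>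
      rw [map_add, map_add, add_sub_add_comm]
      exact add_mem hp hq
    | mul_X p s hp =>
      rw [map_mul, map_mul, show p * X s - ι (π p) * ι (π (X s)) =
        (p - ι (π p)) * X s + ι (π p) * (X s - ι (π (X s))) by ring]
      refine add_mem (Ideal.mul_mem_right _ _ hp) (Ideal.mul_mem_left _ _ ?_)
      rcases Fin.eq_self_or_eq_succAbove j s with rfl | ⟨k, rfl⟩
      · refine Ideal.mem_span_singleton.2 ⟨C (co s)⁻¹, ?_⟩
        rw [show π (X s) = -(co s)⁻¹ • ∑ k, co (s.succAbove k) • (X k : MvPolynomial (Fin n) K) by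
          simp [π, v]]
        rw [← hco, Fin.sum_univ_succAbove _ s, mul_comm, ← smul_eq_C_mul]
        simp only [ι, neg_smul, smul_add, smul_smul, inv_mul_cancel₀ hj, one_smul, map_neg,
          map_smul, map_sum, rename_X, sub_neg_eq_add]
      · rw [hπX]; simp [ι]
  refine ⟨π, fun w => ⟨ι w, hπι w⟩, le_antisymm (fun u hu => ?_) ?_, hhom, fun t u => ?_⟩
  · have := hdiff u
    rwa [show π u = 0 from hu, map_zero, sub_zero] at this
  · rw [Ideal.span_singleton_le_iff_mem]
    exact hπl
  · conv_lhs => rw [← sum_homogeneousComponent u, map_sum, map_sum]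
    have hh : ∀ i, homogeneousComponent t (π (homogeneousComponent i u)) =
        if t = i then π (homogeneousComponent i u) else 0 := fun i =>
      homogeneousComponent_of_mem (hhom (homogeneousComponent_isHomogeneous i u))
    simp only [hh, Finset.sum_ite_eq, Finset.mem_range]
    split_ifs with h
    · rfl
    · rw [homogeneousComponent_eq_zero t u (by omega), map_zero]

section Split

variable {l : MvPolynomial (Fin (n + 1)) K}
  {π : MvPolynomial (Fin (n + 1)) K →ₐ[K] MvPolynomial (Fin n) K}
  (hl : l.IsHomogeneous 1) (h0 : l ≠ 0) (hsurj : Function.Surjective π)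
  (hker : RingHom.ker π.toRingHom = Ideal.span {l})
  (hcomp : ∀ t u, homogeneousComponent t (π u) = π (homogeneousComponent t u))

include hsurj hcomp in
lemma degPart_map {I : Ideal (MvPolynomial (Fin (n + 1)) K)} (hI : HomogI I) (D : ℕ) :
    (degPart D I).map π.toLinearMap = degPart D (I.map π.toRingHom) := by
  refine le_antisymm ?_ fun y hy => ?_
  · rintro _ ⟨u, hu, rfl⟩
    obtain ⟨h1, h2⟩ := mem_degPart.1 hu
    refine mem_degPart.2 ⟨?_, Ideal.mem_map_of_mem _ h2⟩
    show (π u).IsHomogeneous D
    rw [← homogeneousComponent_eq_self h1, ← hcomp]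
    exact homogeneousComponent_isHomogeneous _ _
  · obtain ⟨h1, h2⟩ := mem_degPart.1 hy
    obtain ⟨u, hu, rfl⟩ := (Ideal.mem_map_iff_of_surjective π.toRingHom hsurj).1 h2
    refine ⟨homogeneousComponent D u,
      mem_degPart.2 ⟨homogeneousComponent_isHomogeneous _ _, hI u hu D⟩, ?_⟩
    show π (homogeneousComponent D u) = _
    rw [← hcomp]
    exact homogeneousComponent_eq_self h1

include hsurj hcomp in
lemma homogI_map {I : Ideal (MvPolynomial (Fin (n + 1)) K)} (hI : HomogI I) :
    HomogI (I.map π.toRingHom) := by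
  intro y hy t
  obtain ⟨u, hu, rfl⟩ := (Ideal.mem_map_iff_of_surjective π.toRingHom hsurj).1 hy
  show homogeneousComponent t (π u) ∈ _
  rw [hcomp]
  exact Ideal.mem_map_of_mem π.toRingHom (hI u hu t)

include hl h0 hsurj hker hcomp in
lemma finrank_split {I : Ideal (MvPolynomial (Fin (n + 1)) K)} (hI : HomogI I) (D : ℕ) :
    finrank K (degPart (D + 1) I) =
      finrank K (degPart (D + 1) (I.map π.toRingHom)) + finrank K (degPart D (colonBy I l)) := by
  have e := finrank_map_add_ker π.toLinearMap (degPart (D + 1) I)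
  have hk : degPart (D + 1) I ⊓ LinearMap.ker π.toLinearMap =
      (degPart D (colonBy I l)).map (LinearMap.mulLeft K l) := by
    refine le_antisymm ?_ ?_
    · rintro u ⟨hu, hu0⟩
      obtain ⟨h1, h2⟩ := mem_degPart.1 hu
      have hmem : u ∈ RingHom.ker π.toRingHom := LinearMap.mem_ker.1 hu0
      rw [hker, Ideal.mem_span_singleton] at hmem
      obtain ⟨r, rfl⟩ := hmem
      have hr : l * homogeneousComponent D r = l * r := by
        have := homogeneousComponent_mul_left hl r (D + 1)
        rw [if_pos (by omega), Nat.add_sub_cancel, homogeneousComponent_eq_self h1] at this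
        exact this.symm
      refine ⟨homogeneousComponent D r,
        mem_degPart.2 ⟨homogeneousComponent_isHomogeneous _ _, ?_⟩, hr⟩
      rw [mem_colonBy, hr]
      exact h2
    · rintro _ ⟨r, hr, rfl⟩
      obtain ⟨h1, h2⟩ := mem_degPart.1 hr
      refine ⟨mem_degPart.2 ⟨show (l * r).IsHomogeneous (D + 1) from add_comm 1 D ▸ hl.mul h1, h2⟩,
        LinearMap.mem_ker.2 ?_⟩
      show π (l * r) = 0
      rw [map_mul, show π l = 0 from (hker ▸ Ideal.mem_span_singleton_self l :
        l ∈ RingHom.ker π.toRingHom), zero_mul]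
  rw [hk, degPart_map hsurj hcomp hI] at e
  rw [← (Submodule.equivMapOfInjective _ (fun a b hab => mul_left_cancel₀ h0 hab)
    (degPart D (colonBy I l))).finrank_eq] at e
  omega

include hl hker hcomp hsurj in
lemma finrank_split_zero {I : Ideal (MvPolynomial (Fin (n + 1)) K)} (hI : HomogI I) :
    finrank K (degPart 0 I) = finrank K (degPart 0 (I.map π.toRingHom)) := by
  have e := finrank_map_add_ker π.toLinearMap (degPart 0 I)
  have hk : degPart 0 I ⊓ LinearMap.ker π.toLinearMap = ⊥ := by
    rw [eq_bot_iff]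
    rintro u ⟨hu, hu0⟩
    have hmem : u ∈ RingHom.ker π.toRingHom := LinearMap.mem_ker.1 hu0
    rw [hker, Ideal.mem_span_singleton] at hmem
    obtain ⟨r, rfl⟩ := hmem
    have := homogeneousComponent_mul_left hl r 0
    rw [if_neg (by omega), homogeneousComponent_eq_self (mem_degPart.1 hu).1] at this
    exact (Submodule.mem_bot K).2 this
  rw [hk, finrank_bot, degPart_map hsurj hcomp hI] at e
  omega

end Split

lemma homogI_top : HomogI (⊤ : Ideal (MvPolynomial σ K)) := fun _ _ _ => trivial

lemma degPart_top (t : ℕ) :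
    degPart t (⊤ : Ideal (MvPolynomial σ K)) = homogeneousSubmodule σ K t := by
  ext u; simp [mem_degPart]

lemma finrank_degPart_le [Finite σ] (I : Ideal (MvPolynomial σ K)) (t : ℕ) :
    finrank K (degPart t I) ≤ finrank K (homogeneousSubmodule σ K t) :=
  Submodule.finrank_mono inf_le_left

/-- The quotient dimensions add along a hyperplane. -/
lemma qd_split {l : MvPolynomial (Fin (n + 1)) K}
    {π : MvPolynomial (Fin (n + 1)) K →ₐ[K] MvPolynomial (Fin n) K}
    (hl : l.IsHomogeneous 1) (h0 : l ≠ 0) (hsurj : Function.Surjective π)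
    (hker : RingHom.ker π.toRingHom = Ideal.span {l})
    (hcomp : ∀ t u, homogeneousComponent t (π u) = π (homogeneousComponent t u))
    {I : Ideal (MvPolynomial (Fin (n + 1)) K)} (hI : HomogI I) :
    qd I 0 = qd (I.map π.toRingHom) 0 ∧
      ∀ D, qd I (D + 1) = qd (I.map π.toRingHom) (D + 1) + qd (colonBy I l) D := by
  have htop : colonBy (⊤ : Ideal (MvPolynomial (Fin (n + 1)) K)) l = ⊤ :=
    top_le_iff.1 (le_colonBy _ _)
  refine ⟨?_, fun D => ?_⟩
  · have e1 := finrank_split_zero hl hsurj hker hcomp hI
    have e2 := finrank_split_zero hl hsurj hker hcomp (homogI_top (K := K) (σ := Fin (n + 1)))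
    rw [Ideal.map_top, degPart_top, degPart_top] at e2
    unfold qd
    rw [e1, e2]
  · have e1 := finrank_split hl h0 hsurj hker hcomp hI D
    have e2 := finrank_split hl h0 hsurj hker hcomp (homogI_top (K := K) (σ := Fin (n + 1))) D
    rw [Ideal.map_top, htop, degPart_top, degPart_top, degPart_top] at e2
    have l1 := finrank_degPart_le (I.map π.toRingHom) (D + 1)
    have l2 := finrank_degPart_le (colonBy I l) D
    have l3 := finrank_degPart_le I (D + 1)
    unfold qd
    omega

end Vale.Agent.P200.Split
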