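import Vale.Agent.P200.Split.Good
import Vale.Agent.P200.Split.Hyper
import Vale.Agent.P200.Assemble
import Vale.Agent.P200.Quad.Final
import Vale.Agent.P200.Box.LexPlusPowers
import Vale.Agent.P200.Prime.Models
import Vale.Agent.P200.Skew.Final

/-!
Regular sequences in which all but three forms split into linear factors.
-/

namespace Vale.Agent.P200.Split

open MvPolynomial Module CL

variable {K : Type*} [Field K]

/-- A product of `m` linear forms. -/
def IsSplit {σ : Type*} (g : MvPolynomial σ K) (m : ℕ) : Prop :=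
  ∃ ls : List (MvPolynomial σ K), ls.length = m ∧ (∀ l ∈ ls, l.IsHomogeneous 1) ∧ g = ls.prod

lemma nzd_left {σ : Type*} {J : Ideal (MvPolynomial σ K)} {g h : MvPolynomial σ K}
    (hn : Nzd J (g * h)) : Nzd J g := fun u hu => hn u (by
  rw [mul_right_comm]
  exact Ideal.mul_mem_right _ _ hu)

lemma perm_ofFn {α : Type*} {n : ℕ} (f : Fin (n + 1) → α) (p : Fin (n + 1)) :
    List.Perm (List.ofFn f) (f p :: List.ofFn fun k => f (p.succAbove k)) := by
  rw [← Multiset.coe_eq_coe, ← Multiset.cons_coe]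
  have h1 : ∀ {m : ℕ} (g : Fin m → α), (↑(List.ofFn g) : Multiset α) = Finset.univ.val.map g :=
    fun g => (Fin.univ_val_map g).symm
  rw [h1, h1, Fin.univ_succAbove n p, Finset.cons_val, Multiset.map_cons, Finset.map_val,
    Multiset.map_map]
  rfl

lemma regList_map {σ τ : Type*} (π : MvPolynomial σ K →ₐ[K] MvPolynomial τ K)
    (hsurj : Function.Surjective π) :
    ∀ (Ls : List (MvPolynomial σ K)) (J : Ideal (MvPolynomial σ K)),
      RingHom.ker π.toRingHom ≤ J → RegList J Ls → RegList (J.map π.toRingHom) (Ls.map π)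
  | [], _, _, _ => trivial
  | g :: Ls, J, hk, ⟨h1, h2⟩ => by
    refine ⟨fun v hv => ?_, ?_⟩
    · obtain ⟨u, rfl⟩ := hsurj v
      have h' : g * u ∈ (J.map π.toRingHom).comap π.toRingHom := by
        rw [Ideal.mem_comap, map_mul]
        exact hv
      rw [Ideal.comap_map_of_surjective π.toRingHom hsurj, ← RingHom.ker_eq_comap_bot,
        sup_eq_left.2 hk] at h'
      exact Ideal.mem_map_of_mem π.toRingHom (h1 u h')
    · have h := regList_map π hsurj Ls (Ideal.span {g} ⊔ J) (le_sup_of_le_right hk) h2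
      rwa [Ideal.map_sup, Ideal.map_span, Set.image_singleton] at h

lemma qd_top {σ : Type*} (t : ℕ) : qd (⊤ : Ideal (MvPolynomial σ K)) t = 0 := by
  rw [qd, degPart_top, Nat.sub_self]

lemma qd_anti {σ : Type*} [Finite σ] {I I' : Ideal (MvPolynomial σ K)} (h : I ≤ I') (t : ℕ) :
    qd I' t ≤ qd I t := by
  have : finrank K (degPart t I) ≤ finrank K (degPart t I') :=
    Submodule.finrank_mono fun u hu => mem_degPart.2 ⟨(mem_degPart.1 hu).1, h (mem_degPart.1 hu).2⟩
  unfold qd
  omega

/-- Layers along linear factors, the next one chosen to have the largest quotient. -/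
lemma exists_layers {n : ℕ} (a' : Fin n → ℕ) (g : Fin n → MvPolynomial (Fin (n + 1)) K)
    (π : MvPolynomial (Fin (n + 1)) K → (MvPolynomial (Fin (n + 1)) K →ₐ[K] MvPolynomial (Fin n) K)) :
    ∀ (e : ℕ) (ls : List (MvPolynomial (Fin (n + 1)) K)), ls.length = e →
    (∀ l ∈ ls, l.IsHomogeneous 1 ∧ l ≠ 0 ∧ Function.Surjective (π l) ∧
      RingHom.ker (π l).toRingHom = Ideal.span {l} ∧
      (∀ t u, homogeneousComponent t (π l u) = π l (homogeneousComponent t u)) ∧
      ∀ I', HomogI I' → (∀ k, g k ∈ I') → ∀ t, GoodSeq a' (qd (I'.map (π l).toRingHom)) t) →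
    ∀ (I : Ideal (MvPolynomial (Fin (n + 1)) K)), HomogI I → (∀ k, g k ∈ I) → ls.prod ∈ I →
    ∀ d : ℕ, ∃ qk : ℕ → ℕ → ℕ,
      (0 < e → ∃ l ∈ ls, qk 0 = qd (I.map (π l).toRingHom)) ∧
      (∀ k, k < e → ∀ t, GoodSeq a' (qk k) t) ∧
      (∀ k, k + 1 < e → k ≤ d → qk (k + 1) (d - k) ≤ qk k (d - k)) ∧
      ∀ D, qd I D = ∑ k ∈ (Finset.range (D + 1)).filter (· < e), qk k (D - k) := by
  classical
  intro e
  induction e with
  | zero =>
    intro ls hlen _ I _ _ hprod d
    rw [List.length_eq_zero_iff] at hlen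
    subst hlen
    refine ⟨fun _ _ => 0, fun h => absurd h (lt_irrefl 0), fun k hk => absurd hk (Nat.not_lt_zero k),
      fun k hk => absurd hk (Nat.not_lt_zero _), fun D => ?_⟩
    rw [(Ideal.eq_top_iff_one I).2 (by simpa using hprod), qd_top]
    simp
  | succ e ih =>
    intro ls hlen hls I hI hgI hprod d
    obtain ⟨l, hl, hmax⟩ := Finset.exists_max_image ls.toFinset
      (fun l => qd (I.map (π l).toRingHom) d)
      ⟨ls.head (by intro h; simp [h] at hlen), by simp⟩
    rw [List.mem_toFinset] at hl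
    obtain ⟨hl1, hl0, hsurj, hker, hcomp, hgood⟩ := hls l hl
    obtain ⟨qk, hq0, hqg, hqn, hqs⟩ := ih (ls.erase l)
      (by rw [List.length_erase_of_mem hl]; omega)
      (fun x hx => hls x (List.mem_of_mem_erase hx)) (colonBy I l) (homogI_colonBy hI hl1)
      (fun k => le_colonBy I l (hgI k))
      (by rw [mem_colonBy, List.prod_erase hl]; exact hprod) (d - 1)
    refine ⟨fun k => if k = 0 then qd (I.map (π l).toRingHom) else qk (k - 1), fun _ => ⟨l, hl, rfl⟩,
      fun k hk t => ?_, fun k hk hkd => ?_, fun D => ?_⟩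
    · by_cases h : k = 0
      · simp only [h, if_true]
        exact hgood I hI hgI t
      · simp only [h, if_false]
        exact hqg (k - 1) (by omega) t
    · by_cases h : k = 0
      · subst h
        simp only [Nat.zero_add, one_ne_zero, if_false, Nat.sub_self, if_true, Nat.sub_zero]
        obtain ⟨l', hl', hql'⟩ := hq0 (by omega)
        rw [hql']
        exact (qd_anti (Ideal.map_mono (le_colonBy I l)) d).trans
          (hmax l' (List.mem_toFinset.2 (List.mem_of_mem_erase hl')))
      · simp only [h, if_false, Nat.succ_ne_zero, Nat.add_sub_cancel]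
        have := hqn (k - 1) (by omega) (by omega)
        rw [show k - 1 + 1 = k by omega, show d - 1 - (k - 1) = d - k by omega] at this
        exact this
    · obtain ⟨h0, hs⟩ := qd_split hl1 hl0 hsurj hker hcomp hI
      rw [Finset.sum_filter, Finset.sum_range_succ']
      cases D with
      | zero => simp [h0]
      | succ E =>
        rw [hs E, hqs E, Finset.sum_filter]
        simp [add_comm, Nat.succ_sub_succ]

lemma exists_finset_erase {n : ℕ} {p : Fin (n + 1)} {E : Finset (Fin (n + 1))} :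
    ∃ E' : Finset (Fin n), E'.card ≤ E.card ∧ (∀ k, k ∉ E' → p.succAbove k ∉ E) ∧
      ∀ k ∈ E', p.succAbove k ∈ E := by
  refine ⟨Finset.univ.filter fun k => p.succAbove k ∈ E, ?_, fun k hk h => hk (by simp [h]),
    fun k hk => by simpa using hk⟩
  refine Finset.card_le_card_of_injOn p.succAbove (fun k hk => ?_)
    (Fin.succAbove_right_injective.injOn)
  simpa using hk

lemma card_inside {n : ℕ} {a : Fin n → ℕ} {d : ℕ} {T : Finset (Fin n →₀ ℕ)}
    (hdeg : ∀ e ∈ T, e.degree = d)
    (hP : ∀ e : Fin n →₀ ℕ, e.degree = d → (∃ i, a i ≤ e i) → e ∈ T) :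
    ((box a d).filter fun e => Finsupp.equivFunOnFinite.symm e ∈ T).card +
        ((Finset.univ : Finset (Fin n)).finsuppAntidiag d).card = (box a d).card + T.card := by
  classical
  have hmem : ∀ e : Fin n →₀ ℕ,
      e ∈ (Finset.univ : Finset (Fin n)).finsuppAntidiag d ↔ e.degree = d := fun e => by
    simp [Finsupp.degree_eq_sum]
  have hsub : T ⊆ (Finset.univ : Finset (Fin n)).finsuppAntidiag d := fun e he =>
    (hmem e).2 (hdeg e he)
  have key : ((box a d).filter fun e => Finsupp.equivFunOnFinite.symm e ∉ T).card =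
      ((Finset.univ : Finset (Fin n)).finsuppAntidiag d \ T).card := by
    refine Finset.card_bij (fun e _ => Finsupp.equivFunOnFinite.symm e) (fun e he => ?_)
      (fun e _ e' _ h => Finsupp.equivFunOnFinite.symm.injective h) (fun e he => ?_)
    · rw [Finset.mem_filter] at he
      refine Finset.mem_sdiff.2 ⟨(hmem _).2 ?_, he.2⟩
      simpa [Finsupp.degree_eq_sum] using (mem_box.1 he.1).1
    · rw [Finset.mem_sdiff] at he
      have hd : e.degree = d := (hmem e).1 he.1
      refine ⟨⇑e, Finset.mem_filter.2 ⟨mem_box.2 ⟨by rw [← hd, Finsupp.degree_eq_sum], fun i => ?_⟩,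
        by simpa using he.2⟩, by simp⟩
      by_contra h
      exact he.2 (hP e hd ⟨i, not_lt.1 h⟩)
  have h1 := Finset.card_filter_add_card_filter_not (s := box a d)
    (fun e => Finsupp.equivFunOnFinite.symm e ∈ T)
  have h2 := Finset.card_sdiff_add_card_eq_card hsub
  omega

lemma finrank_homog_eq_card (K : Type*) [Field K] (n d : ℕ) :
    finrank K (homogeneousSubmodule (Fin n) K d) =
      ((Finset.univ : Finset (Fin n)).finsuppAntidiag d).card := by
  have hs : ({e : Fin n →₀ ℕ | e.degree = d} : Set (Fin n →₀ ℕ)) =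
      ↑((Finset.univ : Finset (Fin n)).finsuppAntidiag d) := by
    ext e
    simp [Finsupp.degree_eq_sum]
  have he : homogeneousSubmodule (Fin n) K d =
      restrictSupport K (↑((Finset.univ : Finset (Fin n)).finsuppAntidiag d) : Set (Fin n →₀ ℕ)) := by
    rw [homogeneousSubmodule_eq_finsupp_supported, hs]
    rfl
  rw [he, finrank_eq_card_basis (basisRestrictSupport K _)]
  simp

/-- Lex-plus-powers sets closed under the variables give good growth. -/
lemma good_of_sets {n : ℕ} {a : Fin n → ℕ} {I : Ideal (MvPolynomial (Fin n) K)}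
    {T : ℕ → Finset (Fin n →₀ ℕ)}
    (hdeg : ∀ t, ∀ e ∈ T t, e.degree = t)
    (hP : ∀ t, ∀ e : Fin n →₀ ℕ, e.degree = t → (∃ i, a i ≤ e i) → e ∈ T t)
    (hlex : ∀ t, ∀ e ∈ T t, ∀ e' : Fin n →₀ ℕ, e'.degree = t → (∀ i, e i < a i) →
      (∀ i, e' i < a i) → toLex e < toLex e' → e' ∈ T t)
    (hcard : ∀ t, (T t).card = finrank K (degPart t I))
    (hsucc : ∀ t, ∀ e ∈ T t, ∀ v, e + Finsupp.single v 1 ∈ T (t + 1)) (d : ℕ) :
    GoodSeq a (qd I) d := by
  classical
  let F : ℕ → Finset (Fin n → ℕ) := fun t =>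
    (box a t).filter fun e => Finsupp.equivFunOnFinite.symm e ∈ T t
  have hF : ∀ t, IsTop a t (F t) := fun t => by
    refine ⟨Finset.filter_subset _ _, fun e he e' he' hlt => Finset.mem_filter.2 ⟨he', ?_⟩⟩
    obtain ⟨heb, heT⟩ := Finset.mem_filter.1 he
    refine hlex t _ heT _ ?_ (fun i => by simpa using (mem_box.1 heb).2 i)
      (fun i => by simpa using (mem_box.1 he').2 i) ?_
    · simpa [Finsupp.degree_eq_sum] using (mem_box.1 he').1
    · obtain ⟨j, hj1, hj2⟩ := lt_iff.1 hlt
      exact Finsupp.Lex.lt_iff.2 ⟨j, fun i hi => by simpa using hj1 i hi, by simpa using hj2⟩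
  have hFq : ∀ t, (F t).card + qd I t = (box a t).card := fun t => by
    have h1 := card_inside (a := a) (hdeg t) (hP t)
    have h2 := finrank_degPart_le I t
    have h4 := hcard t
    have h5 := finrank_homog_eq_card K n t
    unfold qd
    simp only [F]
    omega
  refine ⟨by have := hFq d; omega, fun S hS hSc => ?_⟩
  have hsub : S ⊆ F d := hS.subset_of_card (hF d) (by have := hFq d; omega)
  have hup : up a d S ⊆ F (d + 1) := by
    intro y hy
    obtain ⟨hb, i, hi, hm⟩ := mem_up.1 hy
    refine Finset.mem_filter.2 ⟨hb, ?_⟩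
    have h := hsucc d _ (Finset.mem_filter.1 (hsub hm)).2 i
    convert h using 1
    ext k
    rcases eq_or_ne k i with rfl | hk
    · simp [lower]; omega
    · simp [lower, hk]
  have := Finset.card_le_card hup
  have := hFq (d + 1)
  omega

/-- As many quadrics as variables. -/
lemma good_quadrics {n : ℕ} {a : Fin n → ℕ} (ha : ∀ i, a i = 2)
    {f : Fin n → MvPolynomial (Fin n) K} (hf : ∀ i, (f i).IsHomogeneous (a i))
    (hreg : RegList ⊥ (List.ofFn f)) {I : Ideal (MvPolynomial (Fin n) K)} (hI : HomogI I)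
    (hfI : ∀ i, f i ∈ I) (d : ℕ) : GoodSeq a (qd I) d := by
  obtain ⟨s, hs, hd⟩ := Quad.exists_monomialIdeal (fun L _ => Quad.artinian L) le_rfl
    (fun i => ha i ▸ hf i) hreg hI hfI
  obtain ⟨T, hT⟩ := Box.exists_lpp K le_rfl (a := fun _ => 2) (fun _ _ _ => le_rfl) s hs
  obtain rfl : a = fun _ => 2 := funext ha
  refine good_of_sets (T := T) (fun t => (hT t).1) (fun t e he hi => (hT t).2.1 e he ?_)
    (fun t e he e' hd' hb hb' hlt => (hT t).2.2.1 e he e' hd' (fun i => ?_) (fun i => ?_) hlt)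
    (fun t => (hT t).2.2.2.1.trans (hd t)) (fun t => (hT t).2.2.2.2) d
  · obtain ⟨i, hi⟩ := hi
    exact ⟨i, by simpa using hi⟩
  · simpa using hb i
  · simpa using hb' i

/-- Three forms in three variables. -/
lemma good_three {a : Fin 3 → ℕ} (ha : Monotone a) (h2 : ∀ i, 2 ≤ a i) {f : Fin 3 → Poly3 K}
    (hf : ∀ i, (f i).IsHomogeneous (a i)) (hreg : RegList ⊥ (List.ofFn f)) {I : Ideal (Poly3 K)}
    (hfI : ∀ i, f i ∈ I) (d : ℕ) : GoodSeq a (qd I) d := by
  obtain ⟨T, hT⟩ := exists_lpp3 h2 (ha (by decide)) (ha (by decide)) hf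
    (by simpa [List.ofFn_succ] using hreg) hfI
  exact good_of_sets (T := T) (fun t => (hT t).1) (fun t => (hT t).2.1) (fun t => (hT t).2.2.1)
    (fun t => (hT t).2.2.2.1) (fun t => (hT t).2.2.2.2) d

/-- Degrees allowed in a core: at most `q`, and all but two equal to `q`. -/
def CoreDeg {n : ℕ} (q : ℕ) (a : Fin n → ℕ) (E : Finset (Fin n)) : Prop :=
  (∀ i ∈ E, a i ≤ q) ∧ (E.filter fun i => a i < q).card ≤ 2

/-- Good growth for every regular sequence of two forms of degree at most `q` and forms of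
degree `q`, filling all variables. -/
def GoodCore (K : Type*) [Field K] (q : ℕ) : Prop :=
  ∀ (m : ℕ) (a : Fin (m + 2) → ℕ), Monotone a → (∀ i, 2 ≤ a i) → a 1 ≤ q →
    (∀ k : Fin m, a k.succ.succ = q) →
    ∀ f : Fin (m + 2) → MvPolynomial (Fin (m + 2)) K, (∀ i, (f i).IsHomogeneous (a i)) →
    RegList ⊥ (List.ofFn f) → ∀ I : Ideal (MvPolynomial (Fin (m + 2)) K), HomogI I →
    (∀ i, f i ∈ I) → ∀ d, GoodSeq a (qd I) d

lemma goodCore_two : GoodCore K 2 := by
  intro m a ha h2 h1 htail f hf hreg I hI hfI d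
  refine good_quadrics (fun i => le_antisymm ?_ (h2 i)) hf hreg hI hfI d
  induction i using Fin.cases with
  | zero => exact (ha (Fin.zero_le _)).trans h1
  | succ j =>
    induction j using Fin.cases with
    | zero => exact h1
    | succ k => exact (htail k).le

lemma goodCore_prime {p : ℕ} [Fact p.Prime] [CharP K p] : GoodCore K p := by
  intro m a ha h2 h1 htail f hf hreg I hI hfI d
  obtain ⟨T, hT⟩ := Skew.exists_lpp_two_low ha (fun i => by linarith [h2 i]) h1 htail hf hreg hI hfI
  exact good_of_sets (T := T) (fun t => (hT t).1) (fun t => (hT t).2.1) (fun t => (hT t).2.2.1)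
    (fun t => (hT t).2.2.2.1) (fun t => (hT t).2.2.2.2) d

/-- Degrees of a core filling all indices. -/
lemma CoreDeg.univ {m q : ℕ} {a : Fin (m + 2) → ℕ} (ha : Monotone a) {E : Finset (Fin (m + 2))}
    (h : CoreDeg q a E) (hE : ∀ i, i ∈ E) : a 1 ≤ q ∧ ∀ k : Fin m, a k.succ.succ = q := by
  refine ⟨h.1 1 (hE 1), fun k => le_antisymm (h.1 _ (hE _)) ?_⟩
  by_contra hk
  have hsub : ({0, 1, k.succ.succ} : Finset (Fin (m + 2))) ⊆ E.filter fun i => a i < q := by
    intro i hi
    refine Finset.mem_filter.2 ⟨hE i, lt_of_le_of_lt (ha ?_) (not_le.1 hk)⟩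
    simp only [Finset.mem_insert, Finset.mem_singleton] at hi
    rcases hi with rfl | rfl | rfl
    · exact Fin.zero_le _
    · simp [Fin.le_def]
    · exact le_rfl
  have h3 : ({0, 1, k.succ.succ} : Finset (Fin (m + 2))).card = 3 := by
    rw [Finset.card_insert_of_notMem, Finset.card_pair] <;> simp [Fin.ext_iff]
  have := Finset.card_le_card hsub
  have := h.2
  omega

lemma CoreDeg.comap {n q : ℕ} {p : Fin (n + 1)} {a : Fin (n + 1) → ℕ} {E : Finset (Fin (n + 1))}
    {E' : Finset (Fin n)} (h : CoreDeg q a E) (hE : ∀ k ∈ E', p.succAbove k ∈ E) :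
    CoreDeg q (a ∘ p.succAbove) E' := by
  refine ⟨fun k hk => h.1 _ (hE k hk), le_trans ?_ h.2⟩
  refine Finset.card_le_card_of_injOn p.succAbove (fun k hk => ?_)
    (Fin.succAbove_right_injective.injOn)
  simp only [Finset.coe_filter, Set.mem_setOf_eq, Function.comp_apply] at hk ⊢
  exact ⟨hE k hk.1, hk.2⟩

/-- All but a core of three forms, or of forms of good degrees, split. -/
theorem good_split {q : ℕ} (hq : GoodCore K q) : ∀ (m : ℕ) (a : Fin (m + 3) → ℕ), Monotone a → (∀ i, 2 ≤ a i) →
    ∀ f : Fin (m + 3) → MvPolynomial (Fin (m + 3)) K, (∀ i, (f i).IsHomogeneous (a i)) →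
    RegList ⊥ (List.ofFn f) →
    (∃ E : Finset (Fin (m + 3)), (E.card ≤ 3 ∨ CoreDeg q a E) ∧
      ∀ i, i ∉ E → IsSplit (f i) (a i)) →
    ∀ I : Ideal (MvPolynomial (Fin (m + 3)) K), HomogI I → (∀ i, f i ∈ I) →
    ∀ d, GoodSeq a (qd I) d := by
  classical
  intro m
  induction m with
  | zero => intro a ha h2 f hf hreg _ I _ hfI d; exact good_three ha h2 hf hreg hfI d
  | succ m ih =>
    intro a ha h2 f hf hreg ⟨E, hE, hsplit⟩ I hI hfI d
    by_cases hex : ∃ p, p ∉ E
    swap
    · push Not at hex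
      have hcore : CoreDeg q a E := by
        rcases hE with h | h
        · exfalso
          have := Finset.card_le_card (show (Finset.univ : Finset (Fin (m + 1 + 3))) ⊆ E from
            fun x _ => hex x)
          simp at this
          omega
        · exact h
      obtain ⟨h1, htail⟩ := CoreDeg.univ (m := m + 1 + 1) ha hcore hex
      exact hq _ a ha h2 h1 htail f hf hreg I hI hfI d
    obtain ⟨p, hp⟩ := hex
    obtain ⟨ls, hlen, hlin, hprod⟩ := hsplit p hp
    set g : Fin (m + 3) → MvPolynomial (Fin (m + 1 + 3)) K := fun k => f (p.succAbove k) with hg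
    set Rest := List.ofFn g with hRest
    have hposR : ∀ q ∈ Rest, HomogPos q := fun q hq => by
      obtain ⟨k, rfl⟩ := List.mem_ofFn.1 hq
      exact ⟨a (p.succAbove k), by linarith [h2 (p.succAbove k)], hf _⟩
    have hposf : ∀ q ∈ List.ofFn f, HomogPos q := fun q hq => by
      obtain ⟨i, rfl⟩ := List.mem_ofFn.1 hq
      exact ⟨a i, by linarith [h2 i], hf i⟩
    have hperm : List.Perm (List.ofFn f) (Rest ++ [f p]) :=
      (perm_ofFn f p).trans (List.perm_append_comm (l₁ := [f p]) (l₂ := Rest))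
    obtain ⟨hR1, hR2⟩ := regList_concat.1 (regList_perm hperm hposf homogI_bot hreg)
    have hl0 : ∀ l ∈ ls, l ≠ 0 := by
      intro l hl h
      subst h
      rw [hprod, List.prod_eq_zero hl, sup_bot_eq] at hR2
      exact constantCoeff_ofList hposR (hR2 1 (by simp))
    have hregl : ∀ l ∈ ls, RegList (Ideal.span {l}) Rest := by
      intro l hl
      have hfac : Nzd (Ideal.ofList Rest ⊔ ⊥) l := by
        refine nzd_left (h := (ls.erase l).prod) ?_
        rw [List.prod_erase hl, ← hprod]
        exact hR2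
      have h := regList_perm List.perm_append_comm (fun q hq => ?_) homogI_bot
        (regList_concat.2 ⟨hR1, hfac⟩)
      · obtain ⟨-, h'⟩ := (show RegList ⊥ (l :: Rest) from h)
        rwa [sup_bot_eq] at h'
      · rcases List.mem_append.1 hq with hq | hq
        · exact hposR q hq
        · rw [List.mem_singleton.1 hq]; exact ⟨1, one_pos, hlin l hl⟩
    have hπex : ∀ l : MvPolynomial (Fin (m + 3 + 1)) K,
        ∃ π : MvPolynomial (Fin (m + 3 + 1)) K →ₐ[K] MvPolynomial (Fin (m + 3)) K,
        l ∈ ls → Function.Surjective π ∧ RingHom.ker π.toRingHom = Ideal.span {l} ∧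
        (∀ {t : ℕ} {u}, u.IsHomogeneous t → (π u).IsHomogeneous t) ∧
        ∀ t u, homogeneousComponent t (π u) = π (homogeneousComponent t u) := by
      intro l
      by_cases hl : l ∈ ls
      · obtain ⟨π, hπ⟩ := exists_restrict (hlin l hl) (hl0 l hl)
        exact ⟨π, fun _ => hπ⟩
      · exact ⟨aeval fun _ => 0, fun h => absurd h hl⟩
    choose π hπ using hπex
    obtain ⟨E', hE', hE'2, hE'3⟩ := exists_finset_erase (p := p) (E := E)
    obtain ⟨qk, -, hqg, hqn, hqs⟩ := exists_layers (a ∘ p.succAbove) g π (a p) ls hlen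
      (fun l hl => by
        obtain ⟨hsurj, hker, hhom, hcomp⟩ := hπ l hl
        refine ⟨hlin l hl, hl0 l hl, hsurj, hker, hcomp, fun I' hI' hgI' t => ?_⟩
        refine ih (a ∘ p.succAbove) (ha.comp (Fin.strictMono_succAbove p).monotone) (fun k => h2 _)
          (fun k => π l (g k)) (fun k => hhom (hf _)) ?_
          ⟨E', hE.imp (fun h => hE'.trans h) (fun h => h.comap hE'3), fun k hk => ?_⟩ _ (homogI_map hsurj hcomp hI')
          (fun k => Ideal.mem_map_of_mem (π l).toRingHom (hgI' k)) t
        · have h := regList_map (π l) hsurj Rest (Ideal.span {l}) hker.le (hregl l hl)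
          rw [Ideal.map_span, Set.image_singleton,
            show (π l).toRingHom l = 0 from (hker ▸ Ideal.mem_span_singleton_self l :
              l ∈ RingHom.ker (π l).toRingHom), Ideal.span_singleton_eq_bot.2 rfl,
            hRest, List.map_ofFn] at h
          exact h
        · obtain ⟨ks, hk1, hk2, hk3⟩ := hsplit _ (hE'2 k hk)
          refine ⟨ks.map (π l), by simpa using hk1, fun q hq => ?_, ?_⟩
          · obtain ⟨x, hx, rfl⟩ := List.mem_map.1 hq
            exact hhom (hk2 x hx)
          · simp only [g, hk3, map_list_prod])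
      I hI (fun k => hfI _) (hprod ▸ hfI p) d
    exact goodSeq_stack ha p qk (qd I) hqg hqn fun D _ _ => hqs D

end Vale.Agent.P200.Split
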