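import Vale.Agent.P200.Split.Induct
import Vale.Agent.P200.LPP3.Few

/-!
Lex-plus-powers spaces in any number of variables when all but three forms split.
-/

namespace Vale.Agent.P200.Split

open MvPolynomial Module CL

variable {K : Type*} [Field K]

lemma regList_pow_tail {σ : Type*} (N : ℕ) (hN : 0 < N) : ∀ (B A : List (MvPolynomial σ K)),
    (∀ g ∈ A ++ B, HomogPos g) → RegList ⊥ (A ++ B) → RegList ⊥ (A ++ B.map (· ^ N))
  | [], A, _, h => by simpa using h
  | b :: B, A, hp, h => by
    have hpB : ∀ g ∈ A ++ B, HomogPos g := fun g hg => hp g (by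
      rcases List.mem_append.1 hg with h' | h'
      · exact List.mem_append_left _ h'
      · exact List.mem_append_right _ (List.mem_cons_of_mem _ h'))
    obtain ⟨m, hm, hbm⟩ := hp b (by simp)
    have hb : HomogPos (b ^ N) := ⟨m * N, Nat.mul_pos hm hN, hbm.pow N⟩
    have p1 : List.Perm (A ++ b :: B) ((A ++ B) ++ [b]) :=
      List.perm_middle.trans (List.perm_append_singleton b (A ++ B)).symm
    obtain ⟨h1, h2⟩ := regList_concat.1 (regList_perm p1 hp homogI_bot h)
    have hp2 : ∀ g ∈ (A ++ B) ++ [b ^ N], HomogPos g := fun g hg => by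
      rcases List.mem_append.1 hg with h' | h'
      · exact hpB g h'
      · rw [List.mem_singleton.1 h']; exact hb
    have h3 := regList_perm (List.perm_append_singleton (b ^ N) (A ++ B)) hp2 homogI_bot
      (regList_concat.2 ⟨h1, LPP3.nzd_pow h2 N⟩)
    have h4 := regList_pow_tail N hN B (b ^ N :: A) (fun g hg => by
      rcases List.mem_cons.1 hg with rfl | h'
      · exact hb
      · exact hpB g h') h3
    refine regList_perm List.perm_middle.symm (fun g hg => ?_) homogI_bot h4
    rcases List.mem_cons.1 hg with rfl | h'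
    · exact hb
    rcases List.mem_append.1 h' with h'' | h''
    · exact hp g (List.mem_append_left _ h'')
    · obtain ⟨x, hx, rfl⟩ := List.mem_map.1 h''
      obtain ⟨k, hk, hxk⟩ := hpB x (List.mem_append_right _ hx)
      exact ⟨k * N, Nat.mul_pos hk hN, hxk.pow N⟩

lemma box_congr {n : ℕ} {a a' : Fin n → ℕ} {d : ℕ} (h : ∀ i j, j ≤ d → (j < a i ↔ j < a' i)) :
    box a d = box a' d := by
  ext e
  rw [mem_box, mem_box]
  constructor <;> rintro ⟨h1, h2⟩ <;> refine ⟨h1, fun i => ?_⟩
  all_goals
    have hle : e i ≤ d := h1 ▸ Finset.single_le_sum (fun k _ => Nat.zero_le (e k)) (Finset.mem_univ i)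
  · exact (h i _ hle).1 (h2 i)
  · exact (h i _ hle).2 (h2 i)

lemma card_degree_eq (K : Type*) [Field K] (n d : ℕ) :
    ((Finset.univ : Finset (Fin n)).finsuppAntidiag d).card =
      finrank K (homogeneousSubmodule (Fin n) K d) := by
  have hs : ({e : Fin n →₀ ℕ | e.degree = d} : Set (Fin n →₀ ℕ)) =
      ↑((Finset.univ : Finset (Fin n)).finsuppAntidiag d) := by
    ext e
    simp [Finsupp.degree_eq_sum]
  have he : homogeneousSubmodule (Fin n) K d =
      restrictSupport K (↑((Finset.univ : Finset (Fin n)).finsuppAntidiag d) : Set (Fin n →₀ ℕ)) := by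
    rw [homogeneousSubmodule_eq_finsupp_supported, hs]
    rfl
  rw [he, finrank_eq_card_basis (basisRestrictSupport K _)]
  simp

lemma qd_extI {L : Type*} [Field L] [Algebra K L] {n : ℕ} (I : Ideal (MvPolynomial (Fin n) K))
    (t : ℕ) : qd (extI (L := L) I) t = qd I t := by
  have h := finrank_degPart_extI (L := L) (⊤ : Ideal (MvPolynomial (Fin n) K)) t
  rw [extI, Ideal.map_top, degPart_top, degPart_top] at h
  unfold qd
  rw [h, finrank_degPart_extI]

lemma good_split' {q : ℕ} (hq : GoodCore K q) {n m : ℕ} (hm : n = m + 3) {a : Fin n → ℕ} (ha : Monotone a)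
    (h2 : ∀ i, 2 ≤ a i) (f : Fin n → MvPolynomial (Fin n) K) (hf : ∀ i, (f i).IsHomogeneous (a i))
    (hreg : RegList ⊥ (List.ofFn f))
    (hsplit : ∃ E : Finset (Fin n), (E.card ≤ 3 ∨ CoreDeg q a E) ∧
      ∀ i, i ∉ E → IsSplit (f i) (a i))
    {I : Ideal (MvPolynomial (Fin n) K)} (hI : HomogI I) (hfI : ∀ i, f i ∈ I) (d : ℕ) :
    GoodSeq a (qd I) d := by
  subst hm
  exact good_split hq m a ha h2 f hf hreg hsplit I hI hfI d

/-- All but a core of three forms, or of forms of good degrees, split: the lex-plus-powers space is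
an ideal. -/
theorem exists_lpp_split {q : ℕ} (hq : GoodCore (AlgebraicClosure K) q) {n c : ℕ} (hn : 3 ≤ n) (hc : c ≤ n) {a : Fin c → ℕ} (ha : Monotone a)
    (h2 : ∀ i, 2 ≤ a i) {f : Fin c → MvPolynomial (Fin n) K} (hf : ∀ i, (f i).IsHomogeneous (a i))
    (hreg : ∀ i, Nzd (Ideal.span (f '' Set.Iio i)) (f i))
    (hsplit : ∃ E : Finset (Fin c), (E.card ≤ 3 ∨ CoreDeg q a E) ∧ ∀ i, i ∉ E → IsSplit
      (map (algebraMap K (AlgebraicClosure K)) (f i)) (a i))
    {I : Ideal (MvPolynomial (Fin n) K)} (hI : HomogI I) (hfI : ∀ i, f i ∈ I) :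
    ∃ T : ℕ → Finset (Fin n →₀ ℕ), ∀ d,
      (∀ e ∈ T d, e.degree = d) ∧
      (∀ e : Fin n →₀ ℕ, e.degree = d → (∃ i, a i ≤ e (Fin.castLE hc i)) → e ∈ T d) ∧
      (∀ e ∈ T d, ∀ e' : Fin n →₀ ℕ, e'.degree = d →
        (∀ i, e (Fin.castLE hc i) < a i) → (∀ i, e' (Fin.castLE hc i) < a i) →
        toLex e < toLex e' → e' ∈ T d) ∧
      (T d).card = finrank K (degPart d I) ∧
      ∀ e ∈ T d, ∀ v, e + Finsupp.single v 1 ∈ T (d + 1) := by
  classical
  obtain ⟨r, rfl⟩ : ∃ r, n = c + r := ⟨n - c, by omega⟩
  obtain ⟨m, hm⟩ : ∃ m, c + r = m + 3 := ⟨c + r - 3, by omega⟩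
  let L := AlgebraicClosure K
  let φ := map (σ := Fin (c + r)) (algebraMap K L)
  have hposf : ∀ g ∈ List.ofFn fun i => φ (f i), HomogPos g := by
    intro g hg
    obtain ⟨i, rfl⟩ := List.mem_ofFn.1 hg
    exact ⟨a i, by linarith [h2 i], (hf i).map _⟩
  have hregL : RegList ⊥ (List.ofFn fun i => φ (f i)) := by
    refine LPP3.regList_ofFn _ fun i => ?_
    have := nzd_extI (L := L) (hreg i)
    rwa [extI, Ideal.map_span, ← Set.image_comp] at this
  obtain ⟨ls, hls, hregall, -⟩ := exists_linear_extension hposf hregL r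
    (by simp only [List.length_ofFn, Fintype.card_fin]; omega)
  let M : ℕ := 2 + ∑ i, a i
  have hM : ∀ i, a i ≤ M := fun i =>
    le_trans (Finset.single_le_sum (fun k _ => Nat.zero_le (a k)) (Finset.mem_univ i))
      (Nat.le_add_left _ _)
  let aN : ℕ → Fin (c + r) → ℕ := fun N => Fin.append a fun _ : Fin r => M + N
  have hmono : ∀ N, Monotone (aN N) := fun N i j hij => by
    simp only [aN]
    induction i using Fin.addCases with
    | left i =>
      induction j using Fin.addCases with
      | left j => simp only [Fin.append_left]; exact ha (show (i : ℕ) ≤ j from hij)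
      | right j => simp only [Fin.append_left, Fin.append_right]
                   exact (hM i).trans (Nat.le_add_right _ _)
    | right i =>
      induction j using Fin.addCases with
      | left j => exfalso; simp [Fin.le_def] at hij; omega
      | right j => simp [Fin.append_right]
  have hbox : ∀ N, ∀ t < M + N, ∀ e : Fin (c + r) →₀ ℕ, e.degree = t →
      ((⇑e ∈ box (aN N) t) ↔ ∀ i : Fin c, e (Fin.castLE hc i) < a i) := by
    intro N t ht e he
    rw [mem_box]
    have hsum : ∑ i, e i = t := by rw [← he, Finsupp.degree_eq_sum]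
    have hcast : ∀ i : Fin c, Fin.castLE hc i = Fin.castAdd r i := fun i => rfl
    constructor
    · rintro ⟨-, h⟩ i
      have := h (Fin.castAdd r i)
      simpa [aN, hcast] using this
    · refine fun h => ⟨hsum, fun i => ?_⟩
      simp only [aN]
      induction i using Fin.addCases with
      | left i => simpa [hcast] using h i
      | right i =>
        rw [Fin.append_right]
        have := Finset.single_le_sum (fun k _ => Nat.zero_le (e k)) (Finset.mem_univ (Fin.natAdd c i))
        omega
  have hgood : ∀ N, ∀ t, t + 1 < M + N → GoodSeq (aN N) (qd I) t := by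
    intro N t ht
    let g : Fin (c + r) → MvPolynomial (Fin (c + r)) L :=
      Fin.append (fun i => φ (f i)) fun k => ls k ^ (M + N)
    let I' : Ideal (MvPolynomial (Fin (c + r)) L) := extI (L := L) I ⊔ Ideal.span (Set.range g)
    have hgh : ∀ i, (g i).IsHomogeneous (aN N i) := fun i => by
      simp only [g, aN]
      induction i using Fin.addCases with
      | left i => simpa using (hf i).map _
      | right i => simpa using (hls i).pow (M + N)
    have hg2 : ∀ i, 2 ≤ aN N i := fun i => by
      simp only [aN]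
      induction i using Fin.addCases with
      | left i => simpa using h2 i
      | right i => simp [M]; omega
    have hI' : HomogI I' := LPP3.homogI_sup_span_set (homogI_extI hI) fun x ⟨i, hi⟩ =>
      ⟨aN N i, hi ▸ hgh i⟩
    have hgreg : RegList ⊥ (List.ofFn g) := by
      rw [show List.ofFn g = (List.ofFn fun i => φ (f i)) ++ (List.ofFn ls).map (· ^ (M + N)) by
        rw [List.map_ofFn, List.ofFn_fin_append]; rfl]
      refine regList_pow_tail _ (by simp only [M]; omega) _ _ (fun x hx => ?_) hregall
      rcases List.mem_append.1 hx with hx | hx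
      · exact hposf x hx
      · obtain ⟨i, rfl⟩ := List.mem_ofFn.1 hx
        exact ⟨1, one_pos, hls i⟩
    have hgsplit : ∃ E : Finset (Fin (c + r)), (E.card ≤ 3 ∨ CoreDeg q (aN N) E) ∧
        ∀ i, i ∉ E → IsSplit (g i) (aN N i) := by
      obtain ⟨E, hE, hE'⟩ := hsplit
      refine ⟨E.image (Fin.castAdd r), hE.imp (fun h => Finset.card_image_le.trans h)
        (fun h => ⟨fun i hi => ?_, ?_⟩), fun i hi => ?_⟩
      · obtain ⟨k, hk, rfl⟩ := Finset.mem_image.1 hi
        simpa [aN] using h.1 k hk
      · refine le_trans ?_ h.2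
        rw [Finset.filter_image]
        refine Finset.card_image_le.trans (le_of_eq ?_)
        simp [aN]
      simp only [g, aN]
      induction i using Fin.addCases with
      | left i =>
        simp only [Fin.append_left]
        exact hE' i fun h => hi (Finset.mem_image_of_mem _ h)
      | right i =>
        simp only [Fin.append_right]
        exact ⟨List.replicate (M + N) (ls i), by simp,
          fun l hl => by rw [List.eq_of_mem_replicate hl]; exact hls i, by simp⟩
    have hqd : ∀ u, u < M + N → qd I' u = qd I u := fun u hu => by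
      rw [← qd_extI (L := L) I u]
      unfold qd
      rw [LPP3.degPart_sup_high (homogI_extI hI) ?_]
      rintro _ ⟨i, rfl⟩
      simp only [g]
      induction i using Fin.addCases with
      | left i => left; rw [Fin.append_left]; exact Ideal.mem_map_of_mem φ (hfI i)
      | right i => right; exact ⟨M + N, hu, by simpa using (hls i).pow (M + N)⟩
    have key : GoodSeq (aN N) (qd I') t := good_split' hq hm (hmono N) hg2 g hgh hgreg hgsplit hI'
      (fun i => Ideal.mem_sup_right (Ideal.subset_span ⟨i, rfl⟩)) t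
    obtain ⟨k1, k2⟩ := key
    rw [hqd t (by omega)] at k1 k2
    rw [hqd (t + 1) ht] at k2
    exact ⟨k1, k2⟩
  have hsame : ∀ N N', ∀ t, t < M + N → t < M + N' → box (aN N) t = box (aN N') t := by
    intro N N' t h h'
    refine box_congr fun i j hj => ?_
    simp only [aN]
    induction i using Fin.addCases with
    | left i => simp
    | right i => simp only [Fin.append_right]; omega
  have hSex : ∀ d, ∃ S, IsTop (aN d) d S ∧ S.card = (box (aN d) d).card - qd I d := fun d =>
    exists_isTop _ _ _ (Nat.sub_le _ _)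
  choose S hS hSc using hSex
  refine ⟨fun d => ((Finset.univ : Finset (Fin (c + r))).finsuppAntidiag d).filter fun e =>
    ⇑e ∈ box (aN d) d → ⇑e ∈ S d, fun d => ?_⟩
  have hM2 : 2 ≤ M := Nat.le_add_right _ _
  have hdeg : ∀ t (e : Fin (c + r) →₀ ℕ),
      e ∈ (Finset.univ : Finset (Fin (c + r))).finsuppAntidiag t ↔ e.degree = t := fun t e => by
    simp [Finsupp.degree_eq_sum]
  refine ⟨fun e he => (hdeg d e).1 (Finset.mem_filter.1 he).1, fun e he ⟨i, hi⟩ =>
    Finset.mem_filter.2 ⟨(hdeg d e).2 he, fun hb => ?_⟩, fun e he e' hd' hb hb' hlt => ?_, ?_,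
    fun e he v => ?_⟩
  · exact absurd ((hbox d d (by omega) e he).1 hb i) (not_lt.2 hi)
  · obtain ⟨he1, he2⟩ := Finset.mem_filter.1 he
    refine Finset.mem_filter.2 ⟨(hdeg d e').2 hd', fun hb'' => ?_⟩
    refine (hS d).2 _ (he2 ((hbox d d (by omega) e ((hdeg d e).1 he1)).2 hb)) _ hb'' ?_
    obtain ⟨j, hj1, hj2⟩ := Finsupp.Lex.lt_iff.1 hlt
    exact lt_iff.2 ⟨j, fun i hi => by simpa using hj1 i hi, by simpa using hj2⟩
  · have hsplitc := Finset.card_filter_add_card_filter_not
      (s := (Finset.univ : Finset (Fin (c + r))).finsuppAntidiag d)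
      (fun (e : Fin (c + r) →₀ ℕ) => ⇑e ∈ box (aN d) d → ⇑e ∈ S d)
    have hneg : (((Finset.univ : Finset (Fin (c + r))).finsuppAntidiag d).filter fun (e : Fin (c + r) →₀ ℕ) =>
        ¬ (⇑e ∈ box (aN d) d → ⇑e ∈ S d)).card = (box (aN d) d \ S d).card := by
      refine Finset.card_bij (fun e _ => ⇑e) (fun e he => ?_)
        (fun e _ e' _ h => DFunLike.coe_injective h) (fun y hy => ?_)
      · obtain ⟨-, h⟩ := Finset.mem_filter.1 he
        push Not at h
        exact Finset.mem_sdiff.2 h
      · rw [Finset.mem_sdiff] at hy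
        refine ⟨Finsupp.equivFunOnFinite.symm y, Finset.mem_filter.2 ⟨(hdeg d _).2 ?_, ?_⟩, by simp⟩
        · simpa [Finsupp.degree_eq_sum] using (mem_box.1 hy.1).1
        · simpa using hy
    rw [hneg, card_degree_eq K] at hsplitc
    have h1 := Finset.card_sdiff_add_card_eq_card (hS d).1
    have h3 := (hgood d d (by omega)).1
    have h4 := finrank_degPart_le I d
    have h5 : qd I d = finrank K (homogeneousSubmodule (Fin (c + r)) K d) -
      finrank K (degPart d I) := rfl
    have h6 := hSc d
    beta_reduce at *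
    omega
  · obtain ⟨he1, he2⟩ := Finset.mem_filter.1 he
    have hed := (hdeg d e).1 he1
    refine Finset.mem_filter.2 ⟨(hdeg _ _).2 (by rw [map_add, hed, Finsupp.degree_single]),
      fun hb => ?_⟩
    have hb0 : ⇑e ∈ box (aN d) d := by
      rw [hsame d (d + 1) d (by omega) (by omega), mem_box]
      refine ⟨by rw [← hed, Finsupp.degree_eq_sum], fun i => ?_⟩
      have := (mem_box.1 hb).2 i
      simp only [Finsupp.add_apply] at this
      omega
    have hS' : IsTop (aN (d + 1)) d (S d) := by
      obtain ⟨s1, s2⟩ := hS d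
      rw [hsame d (d + 1) d (by omega) (by omega)] at s1 s2
      exact ⟨s1, s2⟩
    have hg1 := hgood (d + 1) d (by omega)
    have hc1 : (S d).card + qd I d ≤ (box (aN (d + 1)) d).card := by
      have := hg1.1
      rw [hSc d, hsame d (d + 1) d (by omega) (by omega)]
      omega
    have hsub : up (aN (d + 1)) d (S d) ⊆ S (d + 1) := by
      refine hS'.up.subset_of_card (hS (d + 1)) ?_
      have := hg1.2 (S d) hS' hc1
      rw [hSc (d + 1)]
      omega
    refine hsub (mem_up.2 ⟨hb, v, by simp, ?_⟩)
    convert he2 hb0 using 1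
    funext k
    rcases eq_or_ne k v with rfl | hk
    · simp [lower]
    · simp [lower, hk]

end Vale.Agent.P200.Split
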