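import Vale.Agent.P200.CL.Main
import Vale.Agent.P200.Basic

/-!
Growth of quotient dimensions against segments of a box, and stacking of layers.
-/

namespace Vale.Agent.P200.Split

open MvPolynomial Module CL

/-- Growth of a sequence no faster than that of complements of segments in the box of `a`. -/
def GoodSeq {n : ℕ} (a : Fin n → ℕ) (q : ℕ → ℕ) (d : ℕ) : Prop :=
  q d ≤ (box a d).card ∧ ∀ S, IsTop a d S → S.card + q d ≤ (box a d).card →
    (up a d S).card + q (d + 1) ≤ (box a (d + 1)).card

lemma card_box_slices {n : ℕ} (a : Fin (n + 1) → ℕ) (p : Fin (n + 1)) (D : ℕ) :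
    (box a D).card = ∑ k ∈ (Finset.range (D + 1)).filter (· < a p),
      (box (a ∘ p.succAbove) (D - k)).card := by
  rw [card_slices (i := p) (N := D + 1) fun e he => Nat.lt_succ_of_le (coord_le he p),
    Finset.sum_filter]
  refine Finset.sum_congr rfl fun k hk => ?_
  rw [Finset.mem_range] at hk
  split_ifs with h
  · congr 1
    ext y
    rw [mem_slice, insertNth_mem_box]
    exact ⟨fun h' => h'.2.2, fun h' => ⟨h, by omega, h'⟩⟩
  · refine Finset.card_eq_zero.2 (Finset.eq_empty_of_forall_notMem fun y hy => ?_)
    exact h (insertNth_mem_box.1 (mem_slice.1 hy)).1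

/-- Nested layers with good growth stack to good growth. -/
theorem goodSeq_stack {n : ℕ} {a : Fin (n + 1) → ℕ} (ha : Monotone a) (p : Fin (n + 1)) {d : ℕ}
    (qk : ℕ → ℕ → ℕ) (q : ℕ → ℕ)
    (hlayer : ∀ k, k < a p → ∀ t, GoodSeq (a ∘ p.succAbove) (qk k) t)
    (hnest : ∀ k, k + 1 < a p → k ≤ d → qk (k + 1) (d - k) ≤ qk k (d - k))
    (hq : ∀ D, d ≤ D → D ≤ d + 1 →
      q D = ∑ k ∈ (Finset.range (D + 1)).filter (· < a p), qk k (D - k)) :
    GoodSeq a q d := by
  classical
  have hex : ∀ k, ∃ T, IsTop (a ∘ p.succAbove) (d - k) T ∧ T.card = (box (a ∘ p.succAbove) (d - k)).card - qk k (d - k) :=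
    fun k => exists_isTop (a ∘ p.succAbove) (d - k) _ (Nat.sub_le _ _)
  choose T hT hTc using hex
  set C := (box a d).filter fun e => (p.removeNth e : Fin n → ℕ) ∈ T (e p) with hC
  have hCs : ∀ k, k < a p → k ≤ d → slice p C k = T k := by
    intro k hk hkd
    ext y
    rw [mem_slice, hC, Finset.mem_filter, insertNth_mem_box]
    simp only [Fin.insertNth_apply_same, Fin.removeNth_insertNth]
    exact ⟨fun h => h.2, fun h => ⟨⟨hk, hkd, (hT k).1 h⟩, h⟩⟩
  have hCs0 : ∀ k, ¬ k < a p → slice p C k = ∅ := fun k hk =>
    Finset.eq_empty_of_forall_notMem fun y hy =>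
      hk (insertNth_mem_box.1 ((Finset.mem_filter.1 (mem_slice.1 hy)).1)).1
  have hCb : C ⊆ box a d := Finset.filter_subset _ _
  have hcard : C.card + q d = (box a d).card := by
    rw [card_slices (i := p) (N := d + 1) fun e he => Nat.lt_succ_of_le (coord_le (hCb he) p),
      hq d le_rfl (by omega), card_box_slices a p d, Finset.sum_filter, Finset.sum_filter,
      ← Finset.sum_add_distrib]
    refine Finset.sum_congr rfl fun k hk => ?_
    rw [Finset.mem_range] at hk
    split_ifs with h
    · rw [hCs k h (by omega), hTc k]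
      have := (hlayer k h (d - k)).1
      omega
    · rw [hCs0 k h]; simp
  refine ⟨by omega, fun S hS hSc => ?_⟩
  have hmain : (up a d S).card ≤ (up a d C).card :=
    cl_holds _ a ha d C S hCb hS (by omega)
  refine le_trans (Nat.add_le_add_right hmain _) ?_
  rw [card_slices (i := p) (N := d + 1 + 1)
      fun e he => Nat.lt_succ_of_le (coord_le (up_subset a d C he) p),
    hq (d + 1) (by omega) le_rfl, card_box_slices a p (d + 1), Finset.sum_filter,
    Finset.sum_filter, ← Finset.sum_add_distrib]
  refine Finset.sum_le_sum fun k hk => ?_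
  rw [Finset.mem_range] at hk
  split_ifs with h
  swap
  · rw [show slice p (up a d C) k = ∅ from Finset.eq_empty_of_forall_notMem fun y hy =>
      h ((mem_slice_up hCb).1 hy).1]
    simp
  by_cases hk1 : k ≤ d
  · have hg := (hlayer k h (d - k)).2 (T k) (hT k) (by
      have := (hlayer k h (d - k)).1
      rw [hTc k]; omega)
    rw [show d - k + 1 = d + 1 - k by omega] at hg
    rcases Nat.eq_zero_or_pos k with rfl | hk0
    · refine le_trans (Nat.add_le_add_right (Finset.card_le_card fun y hy => ?_) _) hg
      rcases ((mem_slice_up hCb).1 hy).2 with ⟨-, h'⟩ | ⟨h', -⟩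
      · rw [hCs 0 h (by omega)] at h'; exact h'
      · exact absurd h' (by omega)
    · have hn := hnest (k - 1) (by omega) (by omega)
      rw [show k - 1 + 1 = k by omega] at hn
      have e : d - (k - 1) = d + 1 - k := by omega
      have hT' := hT (k - 1)
      have hT'c := hTc (k - 1)
      rw [e] at hn hT' hT'c
      have hb := (hlayer k h (d + 1 - k)).1
      have hup := (hT k).up
      rw [show d - k + 1 = d + 1 - k by omega] at hup
      have hsub : slice p (up a d C) k ⊆ up (a ∘ p.succAbove) (d - k) (T k) ∪ T (k - 1) := fun y hy => by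
        rcases ((mem_slice_up hCb).1 hy).2 with ⟨-, h'⟩ | ⟨-, h'⟩
        · rw [hCs k h hk1] at h'; exact Finset.mem_union_left _ h'
        · rw [hCs (k - 1) (by omega) (by omega)] at h'; exact Finset.mem_union_right _ h'
      have hsub' := Finset.card_le_card hsub
      rcases hup.total hT' with h' | h'
      · rw [Finset.union_eq_right.2 h', hT'c] at hsub'
        omega
      · rw [Finset.union_eq_left.2 h'] at hsub'
        omega
  · obtain rfl : k = d + 1 := by omega
    have hn := hnest d h le_rfl
    have hT'c := hTc d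
    have hb := (hlayer (d + 1) h 0).1
    simp only [Nat.sub_self] at hn hT'c hb ⊢
    have hsub : slice p (up a d C) (d + 1) ⊆ T d := fun y hy => by
      rcases ((mem_slice_up hCb).1 hy).2 with ⟨h', -⟩ | ⟨-, h'⟩
      · omega
      · rw [Nat.add_sub_cancel, hCs d (by omega) le_rfl] at h'; exact h'
    have := Finset.card_le_card hsub
    omega

end Vale.Agent.P200.Split
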